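import Vale.Agent.P195.FinalShape
import Vale.Agent.P195.Main

/-!
# P195: the Auslander-Reiten conjecture is false
-/

open CategoryTheory

namespace Vale.Agent.Results.P195.AuslanderReitenFalse

theorem result :
    ∃ (A : Type) (_ : Ring A) (_ : Algebra ℚ A) (M : ModuleCat.{0} A),
      Module.Finite ℚ A ∧ IsArtinianRing A ∧ Module.Finite A M ∧ ¬Module.Projective A M ∧
        ∀ i : ℕ, 1 ≤ i → Subsingleton (Abelian.Ext.{0} M M i) ∧
          Subsingleton (Abelian.Ext.{0} M (ModuleCat.of A A) i) :=
  Vale.Agent.P195.finalShape Vale.Agent.P195.arFails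

end Vale.Agent.Results.P195.AuslanderReitenFalse
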